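import Vale.Agent.P164.UB
import Vale.Agent.P164.LB

namespace Vale.Agent.Results.P164.A_gauge

open Set Filter MeasureTheory ProbabilityTheory Vale.Agent.P164
open scoped NNReal ENNReal Topology

theorem result (κ : ℝ) (hκ : 0 < κ) (hκ8 : κ < 8) : ∃ h : ℝ → ℝ, IsGauge h ∧
    (∀ᶠ r in 𝓝[>] (0 : ℝ),
      h r = r ^ (1 + κ / 8) * Real.log (Real.log (1 / r)) ^ ((2 - (1 + κ / 8)) / 2)) ∧
    ∀ (Ω : Type) [MeasurableSpace Ω] (P : Measure Ω) (B : ℝ≥0 → Ω → ℝ) (γ : Ω → ℝ → ℂ),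
      IsBrownianReal B P → (∀ᵐ ω ∂P, Generates (fun t => √κ * B t.toNNReal ω) (γ ω)) →
      (∀ᵐ ω ∂P, ∀ s t : ℝ, 0 < s → s < t → hm h (γ ω '' Icc s t) < ⊤) ∧
      (κ ≤ 4 → ∀ᵐ ω ∂P, ∀ s t : ℝ, 0 < s → s < t → 0 < hm h (γ ω '' Icc s t)) := by
  refine ⟨gau κ, gau_gauge hκ hκ8, ?_, fun Ω _ P B γ hB hγ => ⟨?_, fun h4 =>
    lower hκ hκ8 (lstage hκ h4) hB hγ⟩⟩
  · filter_upwards [Ioc_mem_nhdsGT (Real.exp_pos (-Real.exp 1))] with r hr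
    rw [gau_eq hr.2]
    congr 2
    ring
  · filter_upwards [upper hκ hκ8 hB hγ] with ω hω s t hs _
    exact lt_of_le_of_lt (hm_mono (image_mono (Icc_subset_Icc_left hs.le))) (hω t)

end Vale.Agent.Results.P164.A_gauge
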